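import Vale.Agent.P153.R2.TOP.Log

/-!
# P153, block SL-TOP, part 2: Eilenberg criterion and Janiszewski theorem

* `logOn_of_joinedIn` : if `p, q` can be joined outside the closed set `K`, then
  `(z - p) / (z - q)` has a continuous logarithm on `K`.
* `joinedIn_of_logOn` : the converse for compact `K`.
* `janiszewski` : if `A, B` are compact, `A ∩ B` is preconnected and neither `A` nor `B`
  separates `p` from `q`, then `A ∪ B` does not.
* `joinedIn_of_hasLogOn`, `isPathConnected_compl_of_hasLogOn`, `isPathConnected_compl_arc`.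
-/

open Set Topology

namespace P153.TOP

/-! ### Winding around a circle -/

/-- `z - p` has no continuous logarithm (not even a nonzero power) on a circle around `p`. -/
theorem not_logOn_circle {p : ℂ} {R : ℝ} (hR : 0 < R) {n : ℤ} (hn : n ≠ 0) :
    ¬ LogOn (Metric.sphere p R) (fun z => (z - p) ^ n) := by
  rintro ⟨L, hL, hL'⟩
  have hcirc : Continuous fun t : ℝ => circleMap p R t := continuous_circleMap p R
  have hmem : ∀ t : ℝ, circleMap p R t ∈ Metric.sphere p R := fun t =>
    circleMap_mem_sphere p hR.le t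
  have h1 : ContinuousOn (fun t : ℝ => L (circleMap p R t)) univ :=
    hL.comp hcirc.continuousOn fun t _ => hmem t
  have h2 : ContinuousOn (fun t : ℝ => (n : ℂ) * (Real.log R + t * Complex.I)) univ := by
    fun_prop
  have h3 := log_diff_const isPreconnected_univ h1 h2 (fun t _ => by
    rw [hL' _ (hmem t), Complex.exp_int_mul, Complex.exp_add]
    rw [← Complex.ofReal_exp, Real.exp_log hR, circleMap]
    ring_nf) (mem_univ (0 : ℝ)) (mem_univ (2 * Real.pi))
  have h4 : circleMap p R (2 * Real.pi) = circleMap p R 0 := by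
    have := periodic_circleMap p R 0
    simpa using this
  simp only [h4] at h3
  have h5 : (n : ℂ) * (2 * Real.pi * Complex.I) = 0 := by
    have := h3
    push_cast at this
    linear_combination this
  rcases mul_eq_zero.1 h5 with h | h
  · exact hn (by exact_mod_cast h)
  · exact Complex.two_pi_I_ne_zero h

/-! ### The easy direction -/

/-- Moving the pole a little. -/
theorem logOn_shift {K : Set ℂ} {q q' : ℂ} {r : ℝ} (hr : ∀ z ∈ K, r ≤ dist z q)
    (h : dist q' q < r) : LogOn K (fun z => (z - q') / (z - q)) := by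
  have hne : ∀ z ∈ K, z - q ≠ 0 := by
    intro z hz h0
    have h1 := hr z hz
    rw [sub_eq_zero.1 h0, dist_self] at h1
    have h2 : 0 ≤ dist q' q := dist_nonneg
    linarith
  refine logOn_of_norm_sub_one_lt ?_ fun z hz => ?_
  · exact (continuousOn_id.sub continuousOn_const).div
      (continuousOn_id.sub continuousOn_const) hne
  · have h0 := hne z hz
    have e : (z - q') / (z - q) - 1 = (q - q') / (z - q) := by
      field_simp
      ring
    rw [e, norm_div]
    have h1 := hr z hz
    rw [dist_eq_norm] at h1 h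
    rw [norm_sub_rev] at h
    rw [div_lt_one (norm_pos_iff.2 h0)]
    linarith

theorem exists_le_dist_of_notMem {K : Set ℂ} (hK : IsClosed K) {q : ℂ} (hq : q ∉ K) :
    ∃ r > 0, ∀ z ∈ K, r ≤ dist z q := by
  obtain ⟨r, hr, hr'⟩ := Metric.isOpen_iff.1 hK.isOpen_compl q hq
  refine ⟨r, hr, fun z hz => ?_⟩
  by_contra hcon
  exact hr' (Metric.mem_ball.2 (not_le.1 hcon)) hz

/-- If `p` and `q` lie in a preconnected subset of the complement of the closed set `K`, then
`(z - p) / (z - q)` has a continuous logarithm on `K`. -/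
theorem logOn_of_preconnected {K : Set ℂ} (hK : IsClosed K) {C : Set ℂ}
    (hC : IsPreconnected C) (hCK : C ⊆ Kᶜ) {p q : ℂ} (hp : p ∈ C) (hq : q ∈ C) :
    LogOn K (fun z => (z - p) / (z - q)) := by
  classical
  -- the set of good `q`
  let U : Set ℂ := {q' | q' ∉ K ∧ LogOn K (fun z => (z - p) / (z - q'))}
  let V : Set ℂ := {q' | q' ∉ K ∧ ¬ LogOn K (fun z => (z - p) / (z - q'))}
  have hpK : p ∉ K := hCK hp
  have step : ∀ a b : ℂ, a ∉ K → (LogOn K (fun z => (z - p) / (z - a))) →
      LogOn K (fun z => (z - a) / (z - b)) → LogOn K (fun z => (z - p) / (z - b)) := by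
    intro a b ha h1 h2
    refine (h1.mul h2).congr fun z hz => ?_
    have : z - a ≠ 0 := fun h => ha (by rw [← sub_eq_zero.1 h]; exact hz)
    field_simp
  have hUo : IsOpen U := by
    rw [Metric.isOpen_iff]
    rintro a ⟨haK, ha⟩
    obtain ⟨r, hr, hr'⟩ := exists_le_dist_of_notMem hK haK
    refine ⟨r, hr, fun b hb => ?_⟩
    rw [Metric.mem_ball] at hb
    have hbK : b ∉ K := fun h => by
      have := hr' b h
      linarith
    refine ⟨hbK, step a b haK ha ?_⟩
    refine ((logOn_shift hr' hb).inv).congr fun z _ => ?_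
    rw [inv_div]
  have hVo : IsOpen V := by
    rw [Metric.isOpen_iff]
    rintro a ⟨haK, ha⟩
    obtain ⟨r, hr, hr'⟩ := exists_le_dist_of_notMem hK haK
    refine ⟨r, hr, fun b hb => ?_⟩
    rw [Metric.mem_ball] at hb
    have hbK : b ∉ K := fun h => by
      have := hr' b h
      linarith
    refine ⟨hbK, fun hcon => ha (step b a hbK hcon ?_)⟩
    exact logOn_shift hr' hb
  have hcov : C ⊆ U ∪ V := by
    intro x hx
    by_cases h : LogOn K (fun z => (z - p) / (z - x))
    · exact Or.inl ⟨hCK hx, h⟩
    · exact Or.inr ⟨hCK hx, h⟩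
  have hdisj : Disjoint U V := by
    rw [Set.disjoint_left]
    rintro x ⟨-, h⟩ ⟨-, h'⟩
    exact h' h
  have hpU : p ∈ U := by
    refine ⟨hpK, (logOn_const one_ne_zero).congr fun z hz => ?_⟩
    exact div_self fun h => hpK (by rw [← sub_eq_zero.1 h]; exact hz)
  exact (hC.subset_left_of_subset_union hUo hVo hdisj hcov ⟨p, hp, hpU⟩ hq).2

/-- If `p` and `q` can be joined outside the closed set `K`, then
`(z - p) / (z - q)` has a continuous logarithm on `K`. -/
theorem logOn_of_joinedIn {K : Set ℂ} (hK : IsClosed K) {p q : ℂ} (h : JoinedIn Kᶜ p q) :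
    LogOn K (fun z => (z - p) / (z - q)) := by
  obtain ⟨γ, hγ⟩ := h
  refine logOn_of_preconnected hK (C := range γ) (isPreconnected_range γ.continuous) ?_
    ⟨0, γ.source⟩ ⟨1, γ.target⟩
  rintro _ ⟨t, rfl⟩
  exact hγ t

/-! ### Components of the complement of a closed set -/

theorem joinedIn_of_preconnected {U : Set ℂ} (hU : IsOpen U) {C : Set ℂ}
    (hC : IsPreconnected C) (hCU : C ⊆ U) {p q : ℂ} (hp : p ∈ C) (hq : q ∈ C) :
    JoinedIn U p q := by
  have h1 : IsOpen (connectedComponentIn U p) := hU.connectedComponentIn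
  have hpU := hCU hp
  have h2 : IsPathConnected (connectedComponentIn U p) := by
    rw [h1.isConnected_iff_isPathConnected.symm]
    exact isConnected_connectedComponentIn_iff.2 hpU
  have hq' : q ∈ connectedComponentIn U p := hC.subset_connectedComponentIn hp hCU hq
  exact (h2.joinedIn p (mem_connectedComponentIn hpU) q hq').mono
    (connectedComponentIn_subset U p)

/-- The outside of a big ball is joined. -/
theorem isPreconnected_compl_closedBall (c : ℂ) (R : ℝ) :
    IsPreconnected (Metric.closedBall c R)ᶜ := by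
  rcases lt_or_ge R 0 with hR | hR
  · rw [Metric.closedBall_eq_empty.2 hR, compl_empty]
    exact isPreconnected_univ
  -- image of the strip `{x > log R}` or so under `c + exp`
  rcases hR.eq_or_lt with h0 | hR
  · rw [← h0, Metric.closedBall_zero]
    exact (isConnected_compl_singleton_of_one_lt_rank (by simp) c).isPreconnected
  have : (Metric.closedBall c R)ᶜ = (fun w => c + Complex.exp w) '' {w | Real.log R < w.re} := by
    ext z
    constructor
    · intro hz
      have hz' : R < ‖z - c‖ := by
        rw [← dist_eq_norm]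
        simpa using hz
      have hne : z - c ≠ 0 := by
        intro h
        rw [h, norm_zero] at hz'
        linarith
      refine ⟨Complex.log (z - c), ?_, ?_⟩
      · rw [mem_ofPred_eq, Complex.log_re]
        exact Real.log_lt_log hR hz'
      · simp only [Complex.exp_log hne]
        ring
    · rintro ⟨w, hw, rfl⟩
      rw [mem_compl_iff, Metric.mem_closedBall, not_le, dist_eq_norm]
      simp only [add_sub_cancel_left, Complex.norm_exp]
      rwa [← Real.log_lt_iff_lt_exp hR]
  rw [this]
  exact (convex_halfSpace_re_gt _).isPreconnected.image _ (by fun_prop)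

/-! ### The hard direction -/

/-- Basic extension argument: if `U` is a bounded open set with frontier in the compact
set `K`, `p ∈ U`, and `(z - p)^n = g z * exp (F z)` on `K` with `g` continuous and nonvanishing on
the closure of `U` then `n = 0`. -/
theorem eq_zero_of_extension {K : Set ℂ} (hK : IsClosed K) {U : Set ℂ} (hUo : IsOpen U)
    (hUb : Bornology.IsBounded U) (hfr : frontier U ⊆ K) {p : ℂ} (hp : p ∈ U) {n : ℤ}
    {g : ℂ → ℂ} (hg : ContinuousOn g (closure U)) (hg0 : ∀ z ∈ closure U, g z ≠ 0)
    (h : LogOn K (fun z => (z - p) ^ n / g z)) : n = 0 := by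
  classical
  by_contra hn
  obtain ⟨F, hF, hF'⟩ := h
  obtain ⟨F₁, hF₁⟩ := ContinuousMap.exists_restrict_eq hK
    (⟨K.domRestrict F, continuousOn_iff_continuous_domRestrict.1 hF⟩ : C(K, ℂ))
  have hF₁' : ∀ z ∈ K, F₁ z = F z := by
    intro z hz
    have := DFunLike.congr_fun hF₁ ⟨z, hz⟩
    exact this
  -- the global function
  let G : ℂ → ℂ := (closure U).piecewise (fun z => g z * Complex.exp (F₁ z)) (fun z => (z - p) ^ n)
  have hGin : ∀ z ∈ closure U, G z = g z * Complex.exp (F₁ z) := fun z hz =>
    Set.piecewise_eq_of_mem _ _ _ hz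
  have hfrz : ∀ z ∈ frontier U, g z * Complex.exp (F₁ z) = (z - p) ^ n := by
    intro z hz
    have hzK := hfr hz
    have hzc : z ∈ closure U := frontier_subset_closure hz
    rw [hF₁' z hzK, hF' z hzK, mul_div_cancel₀ _ (hg0 z hzc)]
  have hGout : ∀ z ∈ Uᶜ, G z = (z - p) ^ n := by
    intro z hz
    by_cases hzc : z ∈ closure U
    · rw [hGin z hzc, hfrz z ?_]
      rw [hUo.frontier_eq]
      exact ⟨hzc, hz⟩
    · exact Set.piecewise_eq_of_notMem _ _ _ hzc
  have hpout : ∀ z ∈ Uᶜ, z - p ≠ 0 := by
    intro z hz h0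
    exact hz (by rw [sub_eq_zero.1 h0]; exact hp)
  have hGc : ContinuousOn G univ := by
    have : (univ : Set ℂ) = closure U ∪ Uᶜ := by
      refine (eq_univ_of_forall fun z => ?_).symm
      by_cases hz : z ∈ U
      · exact Or.inl (subset_closure hz)
      · exact Or.inr hz
    rw [this]
    refine ContinuousOn.union_of_isClosed ?_ ?_ isClosed_closure hUo.isClosed_compl
    · exact (hg.mul ((Complex.continuous_exp.comp F₁.continuous).continuousOn)).congr hGin
    · refine ContinuousOn.congr ?_ hGout
      exact (continuousOn_id.sub continuousOn_const).zpow₀ n fun z hz => Or.inl (hpout z hz)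
  have hG0 : ∀ z ∈ (univ : Set ℂ), G z ≠ 0 := by
    intro z _
    by_cases hzc : z ∈ closure U
    · rw [hGin z hzc]
      exact mul_ne_zero (hg0 z hzc) (Complex.exp_ne_zero _)
    · have hz : z ∈ Uᶜ := fun h => hzc (subset_closure h)
      rw [hGout z hz]
      exact zpow_ne_zero _ (hpout z hz)
  have hlog : LogOn univ G := hasLogOn_of_convex convex_univ G hGc hG0
  obtain ⟨R, hR0, hR⟩ : ∃ R > 0, U ⊆ Metric.ball p R := by
    obtain ⟨R, hR⟩ := hUb.subset_ball p
    exact ⟨max R 1, by positivity, hR.trans (Metric.ball_subset_ball (le_max_left _ _))⟩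
  refine not_logOn_circle (p := p) hR0 hn ((hlog.mono (subset_univ _)).congr fun z hz => ?_)
  refine (hGout z fun hzU => ?_).symm
  have h1 := hR hzU
  rw [Metric.mem_ball] at h1
  rw [Metric.mem_sphere] at hz
  linarith

/-- Frontier of a component of an open set. -/
theorem frontier_component_subset {K : Set ℂ} (hK : IsClosed K) (p : ℂ) :
    frontier (connectedComponentIn Kᶜ p) ⊆ K := by
  intro z hz
  by_contra hzK
  have hUo : IsOpen (connectedComponentIn Kᶜ p) := hK.isOpen_compl.connectedComponentIn
  -- the component of `z` meets the component of `p`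
  have hVo : IsOpen (connectedComponentIn Kᶜ z) := hK.isOpen_compl.connectedComponentIn
  have hzV : z ∈ connectedComponentIn Kᶜ z := mem_connectedComponentIn hzK
  have hzc : z ∈ closure (connectedComponentIn Kᶜ p) := frontier_subset_closure hz
  obtain ⟨w, hwV, hwU⟩ := mem_closure_iff.1 hzc _ hVo hzV
  have e1 := connectedComponentIn_eq hwU
  have e2 := connectedComponentIn_eq hwV
  rw [hUo.frontier_eq] at hz
  apply hz.2
  rw [e1, ← e2]
  exact hzV

/-- **Eilenberg criterion**, hard direction. -/
theorem joinedIn_of_logOn {K : Set ℂ} (hK : IsCompact K) {p q : ℂ} (hp : p ∉ K) (hq : q ∉ K)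
    (h : LogOn K (fun z => (z - p) / (z - q))) : JoinedIn Kᶜ p q := by
  have hKc := hK.isClosed
  have hKo : IsOpen Kᶜ := hKc.isOpen_compl
  by_contra hcon
  -- if the component of `p` is bounded we are done by extension
  have main : ∀ p q : ℂ, p ∉ K → q ∉ K → LogOn K (fun z => (z - p) / (z - q)) →
      ¬ JoinedIn Kᶜ p q → ¬ Bornology.IsBounded (connectedComponentIn Kᶜ p) := by
    intro p q hp hq h hcon hb
    have hpU : p ∈ connectedComponentIn Kᶜ p := mem_connectedComponentIn hp
    have hfr := frontier_component_subset hKc p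
    have hqU : q ∉ connectedComponentIn Kᶜ p := fun hqU => hcon
      (joinedIn_of_preconnected hKo isPreconnected_connectedComponentIn
        (connectedComponentIn_subset _ _) hpU hqU)
    have hqcl : q ∉ closure (connectedComponentIn Kᶜ p) := by
      intro hqc
      apply hq
      apply hfr
      rw [hKo.connectedComponentIn.frontier_eq]
      exact ⟨hqc, hqU⟩
    have := eq_zero_of_extension hKc (U := connectedComponentIn Kᶜ p)
      hKo.connectedComponentIn hb hfr hpU (n := 1) (g := fun z => z - q)
      (continuousOn_id.sub continuousOn_const)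
      (fun z hz h0 => hqcl (by rw [← sub_eq_zero.1 h0]; exact hz))
      (h.congr fun z _ => by rw [zpow_one])
    exact one_ne_zero this
  have hub1 := main p q hp hq h hcon
  have hub2 := main q p hq hp (h.inv.congr fun z _ => by rw [inv_div]) (fun h => hcon h.symm)
  obtain ⟨R, hR⟩ := hK.isBounded.subset_closedBall (0 : ℂ)
  have hout : (Metric.closedBall (0 : ℂ) R)ᶜ ⊆ Kᶜ := compl_subset_compl.2 hR
  -- both components meet the outside of the ball
  have hmeet : ∀ p : ℂ, ¬ Bornology.IsBounded (connectedComponentIn Kᶜ p) →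
      ∃ z ∈ connectedComponentIn Kᶜ p, z ∈ (Metric.closedBall (0 : ℂ) R)ᶜ := by
    intro p hub
    by_contra hno
    push Not at hno
    exact hub (Metric.isBounded_closedBall.subset fun z hz => not_not.1 (hno z hz))
  obtain ⟨z, hz, hzR⟩ := hmeet p hub1
  obtain ⟨w, hw, hwR⟩ := hmeet q hub2
  have j1 : JoinedIn Kᶜ p z := joinedIn_of_preconnected hKo isPreconnected_connectedComponentIn
    (connectedComponentIn_subset _ _) (mem_connectedComponentIn hp) hz
  have j2 : JoinedIn Kᶜ q w := joinedIn_of_preconnected hKo isPreconnected_connectedComponentIn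
    (connectedComponentIn_subset _ _) (mem_connectedComponentIn hq) hw
  have j3 : JoinedIn Kᶜ z w := joinedIn_of_preconnected hKo
    (isPreconnected_compl_closedBall 0 R) hout hzR hwR
  exact hcon ((j1.trans j3).trans j2.symm)

/-- **Eilenberg criterion.** -/
theorem joinedIn_compl_iff {K : Set ℂ} (hK : IsCompact K) {p q : ℂ} (hp : p ∉ K) (hq : q ∉ K) :
    JoinedIn Kᶜ p q ↔ LogOn K (fun z => (z - p) / (z - q)) :=
  ⟨logOn_of_joinedIn hK.isClosed, joinedIn_of_logOn hK hp hq⟩

/-- **Janiszewski theorem.** -/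
theorem janiszewski {A B : Set ℂ} (hA : IsCompact A) (hB : IsCompact B)
    (hAB : IsPreconnected (A ∩ B)) {p q : ℂ} (h1 : JoinedIn Aᶜ p q) (h2 : JoinedIn Bᶜ p q) :
    JoinedIn (A ∪ B)ᶜ p q := by
  have hpA : p ∉ A := h1.mem.1
  have hqA : q ∉ A := h1.mem.2
  have hpB : p ∉ B := h2.mem.1
  have hqB : q ∉ B := h2.mem.2
  refine joinedIn_of_logOn (hA.union hB) (fun h => h.elim hpA hpB) (fun h => h.elim hqA hqB) ?_
  exact LogOn.union hA.isClosed hB.isClosed hAB (logOn_of_joinedIn hA.isClosed h1)
    (logOn_of_joinedIn hB.isClosed h2)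

/-- **Janiszewski theorem** for a compact set `A` and a closed set `B` (possibly unbounded). -/
theorem janiszewski_closed {A B : Set ℂ} (hA : IsCompact A) (hB : IsClosed B)
    (hAB : IsPreconnected (A ∩ B)) {p q : ℂ} (h1 : JoinedIn Aᶜ p q) (h2 : JoinedIn Bᶜ p q) :
    JoinedIn (A ∪ B)ᶜ p q := by
  obtain ⟨γ, hγ⟩ := id h2
  obtain ⟨R, hR⟩ : ∃ R : ℝ, A ∪ range γ ⊆ Metric.ball 0 R :=
    (hA.union (isCompact_range γ.continuous)).isBounded.subset_ball 0
  have hAR : A ⊆ Metric.ball 0 R := subset_union_left.trans hR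
  have hγR : range γ ⊆ Metric.ball 0 R := subset_union_right.trans hR
  have hB' : IsCompact ((B ∩ Metric.closedBall 0 R) ∪ Metric.sphere 0 R) :=
    ((isCompact_closedBall 0 R).inter_left hB).union (isCompact_sphere 0 R)
  have hj : JoinedIn ((B ∩ Metric.closedBall 0 R) ∪ Metric.sphere 0 R)ᶜ p q := by
    refine ⟨γ, fun t ht => ?_⟩
    rcases ht with ht | ht
    · exact hγ t ht.1
    · have := hγR (mem_range_self t)
      rw [Metric.mem_ball] at this
      rw [Metric.mem_sphere] at ht
      linarith
  have hcap : A ∩ ((B ∩ Metric.closedBall 0 R) ∪ Metric.sphere 0 R) = A ∩ B := by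
    ext x
    constructor
    · rintro ⟨hxA, hx | hx⟩
      · exact ⟨hxA, hx.1⟩
      · have := hAR hxA
        rw [Metric.mem_ball] at this
        rw [Metric.mem_sphere] at hx
        linarith
    · rintro ⟨hxA, hxB⟩
      exact ⟨hxA, Or.inl ⟨hxB, Metric.ball_subset_closedBall (hAR hxA)⟩⟩
  obtain ⟨δ, hδ⟩ := janiszewski hA hB' (by rw [hcap]; exact hAB) h1 hj
  have hδR : range δ ⊆ Metric.ball 0 R := by
    refine (isPreconnected_range δ.continuous).subset_left_of_subset_union
      Metric.isOpen_ball (Metric.isClosed_closedBall (x := (0 : ℂ)) (ε := R)).isOpen_compl ?_ ?_ ?_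
    · rw [Set.disjoint_left]
      exact fun x hx hx' => hx' (Metric.ball_subset_closedBall hx)
    · rintro _ ⟨t, rfl⟩
      have h3 : δ t ∉ Metric.sphere (0 : ℂ) R := fun h => hδ t (Or.inr (Or.inr h))
      by_cases h4 : δ t ∈ Metric.ball (0 : ℂ) R
      · exact Or.inl h4
      · refine Or.inr fun h5 => h3 ?_
        rw [Metric.mem_ball, not_lt] at h4
        rw [Metric.mem_closedBall] at h5
        exact le_antisymm h5 h4
    · exact ⟨p, ⟨0, δ.source⟩, hγR ⟨0, γ.source⟩⟩
  refine ⟨δ, fun t ht => ?_⟩
  rcases ht with ht | ht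
  · exact hδ t (Or.inl ht)
  · exact hδ t (Or.inr (Or.inl ⟨ht, Metric.ball_subset_closedBall (hδR (mem_range_self t))⟩))

/-- A compact set with logarithms does not separate the plane. -/
theorem joinedIn_of_hasLogOn {K : Set ℂ} (hK : IsCompact K) (hL : HasLogOn K) {p q : ℂ}
    (hp : p ∉ K) (hq : q ∉ K) : JoinedIn Kᶜ p q := by
  refine joinedIn_of_logOn hK hp hq (hL _ ?_ ?_)
  · refine (continuousOn_id.sub continuousOn_const).div
      (continuousOn_id.sub continuousOn_const) fun z hz h0 => hq ?_
    rw [← sub_eq_zero.1 h0]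
    exact hz
  · intro z hz
    refine div_ne_zero (fun h0 => hp ?_) (fun h0 => hq ?_)
    · rw [← sub_eq_zero.1 h0]; exact hz
    · rw [← sub_eq_zero.1 h0]; exact hz

theorem isPathConnected_compl_of_hasLogOn {K : Set ℂ} (hK : IsCompact K) (hL : HasLogOn K) :
    IsPathConnected Kᶜ := by
  obtain ⟨p, hp⟩ : ∃ p, p ∉ K := by
    by_contra hcon
    push Not at hcon
    have : K = univ := eq_univ_of_forall hcon
    rw [this] at hK
    exact NoncompactSpace.noncompact_univ hK
  exact ⟨p, hp, fun {q} hq => joinedIn_of_hasLogOn hK hL hp hq⟩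

/-- **An arc does not separate the plane.** -/
theorem isPathConnected_compl_arc {a b : ℝ} {γ : ℝ → ℂ} (hγ : ContinuousOn γ (Icc a b))
    (hinj : InjOn γ (Icc a b)) : IsPathConnected (γ '' Icc a b)ᶜ :=
  isPathConnected_compl_of_hasLogOn (isCompact_Icc.image_of_continuousOn hγ)
    (hasLogOn_arc hγ hinj)

end P153.TOP
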